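import Vale.Agent.P004F.St
import Vale.Agent.P004F.Lt.Grp

/-! # P004F (FRAME), row LOCT: the tame local presentation -/

set_option linter.all false

open NumberField Matrix
open scoped Classical

noncomputable section

namespace Vale.Agent.P004F.Lt

open Vale.Agent.P022
open Vale.Agent.P022D.W (dec)
open Pr (ac ac_add ac_zero)

variable {R : Type} [CommRing R] {M M' : Type} [AddCommGroup M] [Module R M] [AddCommGroup M']
  [Module R M'] {s μ ν : Type} [Fintype μ] [Fintype ν]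

theorem ac_mul (A : Matrix s μ R) (B : Matrix μ ν R) (x : ν → M) : ac (A * B) x = ac A (ac B x) :=
  funext fun i => by
    simp only [ac, Matrix.mul_apply, Finset.sum_smul, Finset.smul_sum, mul_smul]
    exact Finset.sum_comm

theorem ac_one (x : Fin 2 → M) : ac (1 : M2 R) x = x :=
  funext fun i => by simp [ac, Matrix.one_apply]

theorem add_ac (A B : Matrix s μ R) (x : μ → M) : ac (A + B) x = ac A x + ac B x :=
  funext fun i => by simp only [ac, Matrix.add_apply, Pi.add_apply, add_smul, Finset.sum_add_distrib]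

theorem sub_ac (A B : Matrix s μ R) (x : μ → M) : ac (A - B) x = ac A x - ac B x :=
  funext fun i => by simp only [ac, Matrix.sub_apply, Pi.sub_apply, sub_smul, Finset.sum_sub_distrib]

theorem zero_ac (x : μ → M) : ac (0 : Matrix s μ R) x = 0 := funext fun i => by simp [ac]

theorem ac_cols (A : Matrix s μ R) (B : Matrix s ν R) (x : μ ⊕ ν → M) :
    ac (fromCols A B) x = ac A (x ∘ .inl) + ac B (x ∘ .inr) :=
  funext fun i => by simp [ac, Fintype.sum_sum_type]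

theorem ac_map (θ : M →ₗ[R] M') (A : Matrix s μ R) (x : μ → M) : θ ∘ ac A x = ac A (θ ∘ x) :=
  funext fun i => by simp [ac]

variable (R M) in
/-- affine maps -/
@[ext] structure Af where
  x : Fin 2 → M
  A : M2 R

instance : Monoid (Af R M) where
  mul a b := ⟨a.x + ac a.A b.x, a.A * b.A⟩
  one := ⟨0, 1⟩
  mul_assoc a b c := Af.ext (show a.x + ac a.A b.x + ac (a.A * b.A) c.x =
    a.x + ac a.A (b.x + ac b.A c.x) by rw [ac_add, ac_mul, add_assoc]) (Matrix.mul_assoc _ _ _)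
  one_mul a := Af.ext (show 0 + ac 1 a.x = a.x by rw [ac_one, zero_add]) (Matrix.one_mul _)
  mul_one a := Af.ext (show a.x + ac a.A 0 = a.x by rw [ac_zero, add_zero]) (Matrix.mul_one _)

theorem mul_df (a b : Af R M) : a * b = ⟨a.x + ac a.A b.x, a.A * b.A⟩ := rfl

theorem one_df : (1 : Af R M) = ⟨0, 1⟩ := rfl

theorem pow_df (a : Af R M) (n : ℕ) :
    a ^ n = ⟨ac (∑ i ∈ Finset.range n, a.A ^ i) a.x, a.A ^ n⟩ := by
  induction n with
  | zero => rw [pow_zero, pow_zero, Finset.sum_range_zero, zero_ac, one_df]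
  | succ n ih => rw [pow_succ, ih, mul_df, Finset.sum_range_succ, add_ac, pow_succ]

theorem ord {k N : ℕ} (h : (2 : R) ^ k = 0) (a : Af R M) (hN : a.A ^ N = 1) :
    a ^ (N * 2 ^ k) = 1 := by
  have e : ((2 ^ k : ℕ) : R) = 0 := by simpa using h
  rw [pow_mul, pow_df a, pow_df, hN, one_df]
  simp only [one_pow, Finset.sum_const, Finset.card_range]
  rw [← Nat.cast_smul_eq_nsmul R, e, zero_smul, zero_ac]

theorem rel_iff (a t : Af R M) (q : ℕ) (y : Fin 2 ⊕ Fin 2 → M) (h1 : y ∘ .inl = a.x)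
    (h2 : y ∘ .inr = t.x) (h : a.A * t.A = t.A ^ q * a.A) :
    a * t = t ^ q * a ↔ ac (Nt a.A t.A q) y = 0 := by
  rw [pow_df, mul_df, mul_df, Af.ext_iff, and_iff_left h, Nt, ac_cols, h1, h2, sub_ac, sub_ac,
    ac_one, ← sub_eq_zero]
  refine Eq.congr_left ?_
  show a.x + ac a.A t.x - (ac _ t.x + ac (t.A ^ q) a.x) = _
  abel

/-- the linear part -/
def lin : Af R M →* M2 R := ⟨⟨Af.A, rfl⟩, fun _ _ => rfl⟩

/-- change of the module -/
def chg (θ : M →ₗ[R] M') : Af R M →* Af R M' where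
  toFun a := ⟨θ ∘ a.x, a.A⟩
  map_one' := Af.ext (funext fun _ => map_zero θ) rfl
  map_mul' a b := Af.ext (show θ ∘ (a.x + ac a.A b.x) = θ ∘ a.x + ac a.A (θ ∘ b.x) by
    rw [← ac_map]; exact funext fun _ => map_add θ _ _) rfl

theorem Pl.uniq {Γ : Subgroup GQ} {l f : ℕ} {P : Ideal (𝓞 Qb)} {φ τ : GQ} {G G' : Type} [Monoid G]
    [Monoid G'] {σ : GQ → G} {σ' : GQ → G'} (p : Pl Γ l f P φ τ) (h : Hm Γ P σ) (h' : Hm Γ P σ')
    (θ : G →* G') (a : θ (σ (φ ^ f)) = σ' (φ ^ f)) (b : θ (σ τ) = σ' τ) :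
    ∀ g ∈ Γ ⊓ dec P, θ (σ g) = σ' g := fun g hg => by
  obtain ⟨i, k, e⟩ := (p.str (h.prod h')).2 g hg
  have e1 : σ g = σ τ ^ i * σ (φ ^ f) ^ k := congrArg Prod.fst e
  have e2 : σ' g = σ' τ ^ i * σ' (φ ^ f) ^ k := congrArg Prod.snd e
  rw [e1, e2, map_mul, map_pow, map_pow, a, b]

/-- the universal solution of `ac N y = 0` -/
theorem univ (N : Matrix s μ R) [Fintype s] : ∃ (M₀ : Type) (_ : AddCommGroup M₀) (_ : Module R M₀)
    (y : μ → M₀), ac N y = 0 ∧ (∀ v : s → M₀, ∃ B : Matrix s μ R, ac B y = v) ∧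
    (∀ B : Matrix s μ R, ac B y = 0 → ∃ β : Matrix s s R, B = β * N) ∧
    ∀ (M : Type) [AddCommGroup M] [Module R M] (z : μ → M), ac N z = 0 →
      ∃ θ : M₀ →ₗ[R] M, θ ∘ y = z := by
  let S : Submodule R (μ → R) := Submodule.span R (Set.range fun i => N i)
  have k : ∀ (B : Matrix s μ R) i, ac B (fun j => S.mkQ (Pi.single j 1)) i = S.mkQ (B i) :=
    fun B i => by
      simp only [ac, ← map_smul, ← map_sum]
      exact congrArg _ (pi_eq_sum_univ' _).symm
  refine ⟨(μ → R) ⧸ S, inferInstance, inferInstance, fun j => S.mkQ (Pi.single j 1),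
    funext fun i => ?_, fun v => ?_, fun B hB => ?_, fun M _ _ z hz => ?_⟩
  · exact (k N i).trans ((Submodule.Quotient.mk_eq_zero S).2 (Submodule.subset_span ⟨i, rfl⟩))
  · choose B hB using fun i => S.mkQ_surjective (v i)
    exact ⟨B, funext fun i => (k B i).trans (hB i)⟩
  · choose β hβ using fun i => (Submodule.mem_span_range_iff_exists_fun R).1
      ((Submodule.Quotient.mk_eq_zero S).1 ((k B i).symm.trans (congrFun hB i)))
    refine ⟨Matrix.of β, Matrix.ext fun i j => ?_⟩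
    rw [Matrix.mul_apply, ← congrFun (hβ i) j, Finset.sum_apply]
    rfl
  · refine ⟨S.liftQ (Fintype.linearCombination R z) (Submodule.span_le.2 ?_), funext fun j => ?_⟩
    · rintro _ ⟨i, rfl⟩
      exact congrFun hz i
    · simp

/-- **the tame local presentation** -/
theorem loct : LOCT := by
  intro R _ _ k h2 Γ l f P φ τ a ov l2 f0 fb gn ine pw opn one mul lc two
  have p : Pl Γ l f P φ τ := ⟨ov, l2, f0, fb, gn, ine, pw, opn⟩
  have ha : Hm Γ P a := ⟨one, mul, lc, two⟩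
  have rel := (p.str ha).1
  obtain ⟨M₀, _, _, y, y0, sj, ker, un⟩ := univ (Nt (a (φ ^ f)) (a τ) (l ^ f))
  obtain ⟨n, hn⟩ := two τ gn.1
  obtain ⟨W, oW, hW⟩ := lc
  obtain ⟨N, N0, hN⟩ := ex_pow oW (φ ^ f)
  obtain ⟨ρ, Q, π, hρ, rF, rt, rπ, ne, V, oV, hV⟩ := p.ex (G := Af R M₀)
    (F := ⟨y ∘ .inl, a (φ ^ f)⟩) (t := ⟨y ∘ .inr, a τ⟩) (n := n + k) (N := N * 2 ^ k)
    (by rw [pow_add]; exact ord h2 _ hn) (by positivity)
    (ord h2 _ ((ha.pow p.F N).symm.trans (hW _ (pow_mem p.F N) hN)))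
    ((rel_iff _ _ _ y rfl rfl rel).2 y0)
  have ρa := p.uniq hρ ha lin (by rw [rF]; rfl) (by rw [rt]; rfl)
  choose B hB using sj
  let b : GQ → Matrix (Fin 2) (Fin 2 ⊕ Fin 2) R := fun g =>
    if π g = π (φ ^ f) then fromCols 1 0 else if π g = π τ then fromCols 0 1 else B (ρ g).x
  have hb : ∀ g, ac (b g) y = (ρ g).x := fun g => by
    simp only [b]
    split_ifs with c d
    · rw [rπ _ _ c, rF, ac_cols, ac_one, zero_ac, add_zero]
    · rw [rπ _ _ d, rt, ac_cols, ac_one, zero_ac, zero_add]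
    · exact hB _
  refine ⟨b, fun g hg h hh => ?_, ⟨V, oV, fun g _ w _ m => ?_⟩, if_pos rfl,
    (if_neg ne.symm).trans (if_pos rfl), fun M _ _ x cx ⟨U, oU, hU⟩ => ?_⟩
  · obtain ⟨β, e⟩ := ker (b (g * h) - (b g + a g * b h)) (by
      rw [sub_ac, add_ac, ac_mul, hb, hb, hb, hρ.mul g hg h hh, ← ρa g hg]; exact sub_self _)
    exact ⟨β, sub_eq_iff_eq_add'.1 e⟩
  · simp only [b, hV g w m, rπ _ _ (hV g w m)]
  · have hσ : Hm Γ P fun g => (⟨x g, a g⟩ : Af R M) := by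
      refine ⟨Af.ext (hU 1 (one_mem _) (one_mem _)) one, fun g hg h hh =>
        Af.ext (cx g hg h hh) (mul g hg h hh), ⟨U ⊓ W, oU.inter oW, fun w m c =>
          Af.ext (hU w m c.1) (hW w m c.2)⟩, fun g hg => ?_⟩
      obtain ⟨m, e⟩ := two g hg
      exact ⟨m + k, by rw [pow_add]; exact ord h2 _ e⟩
    have z0 := (rel_iff _ _ _ (Sum.elim (x (φ ^ f)) (x τ)) rfl rfl rel).1 (p.str hσ).1
    obtain ⟨θ, hθ⟩ := un M _ z0
    refine ⟨z0, fun g hg => ?_⟩
    have e := p.uniq hρ hσ (chg θ) (by rw [rF]; exact Af.ext (congrArg (· ∘ Sum.inl) hθ) rfl)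
      (by rw [rt]; exact Af.ext (congrArg (· ∘ Sum.inr) hθ) rfl) g hg
    rw [← hθ, ← ac_map, hb]
    exact (congrArg Af.x e).symm

end Vale.Agent.P004F.Lt
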